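import Crest.Agent.X212.Lx51.Core
import Crest.Agent.X212.M.Lxw
import Crest.Agent.X212.Kof81.Prs
import Crest.Agent.X212.Dw82.Flc
import Crest.Agent.X212.Add46.Dif
import Crest.Agent.X212.Klp2.Lx
import Crest.Agent.X212.Nck90.Cat_Mg
import Crest.Agent.X212.Wl34.Ccl
import Crest.Agent.X212.Pyl42.Main
import Crest.Agent.X212.Num99.Defs

/-!
# Row 212, LIXP (helper51): the insides of the broken lens walls of the faces of prisms
-/

set_option autoImplicit false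
set_option linter.unusedSectionVars false
noncomputable section
open scoped Topology
open Set Function Filter

namespace Crest.Agent.X212.Lx51
open An M G75 Nd18 Rf65 Lix26 Ins26
open An.Job (Sol)

variable {κ lam : Type} [Fintype κ] [Fintype lam] [DecidableEq lam] {Lm : LM κ lam}
  (H : Lns95.LH Lm)

theorem q0 {Wi : Type} {S : Xs Wi κ lam} (h : S.ty = 0) (q : Wi →₀ ℝ) : S.q q = 0 := by
  simp [Xs.q, h]

include H

theorem sc_in {S : Scene Lm} (hS : S.OK) (i : S.L) (l : S.ls) :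
    SC (S.M.sys.U (hp l.1 false)) := by
  have := S.M.con
  have s := Lns95.LOK.hs hS l i
  rw [Kl48.U_hp, ← Lns95.LOK.img hS l i]
  refine ⟨H.lx.sc.1.image _ ((S.I l).ψ.contMDiffOn.continuousOn.mono s), ?_⟩
  rintro _ ⟨x, hx, rfl⟩
  exact image_singleton ▸ (H.lx.sc.2 x hx).image (S.I l).ψ.toOpenPartialHomeomorph s
    (singleton_subset_iff.2 hx)

/-- **LEAF LIXP** -/
theorem lx (L : IxL κ (lam ⊕ lam) 8) (hN : Num99.NumLS Lm) : Fk18.LxStmt Lm := by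
  intro y₀ P S z R Z T h0 h1
  have hi : z.c Z.i ≠ 0 := fun e => h1.c (congrFun e _)
  have G := Kof81.gxP h0.t h0.cn h1.F hi z.m z.k
  have hS := G.sc
  have hJ : Z.J0.OK := (h1.F.R _ hi 0).1
  have hσ : Z.ce ∈ Z.J.𝒦 := ⟨_, _, _, rfl, nofun, h1.c, h1.sub⟩
  have py := fun l hl => (Pyl42.pyl H Lxd19.deck S z.D Z.i _ _ _ Z.J0 hS hJ l hl).1
  have nl : ∀ l : S.ls, Nl Z.J0 l := fun l => G.nil l fun k => (hS.fz _ (G.fz _ k)).2.1 l.2
  have lk := Lxv20.lok H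
  obtain ⟨δ₁, p1, dc⟩ := Klp2.decL G py
  obtain ⟨δ₂, p2, fl⟩ := Fil70.filA H Z.J0 Z.e hS hJ
  by_cases hm : cylW Z.e ⊆ Z.F.m.1
  swap
  · exact .of_forall fun δ => Sml.of fun _ q y l _ hy _ => (hm fun a ha =>
      let ⟨_, k, _⟩ := G.ok.inf _ hσ y.s hy.ov.1 a (hy.inf.ge ha.1); G.ok.mem _ _ k ha.2).elim
  have k : ∀ l : S.ls, ∀ᶠ δ in 𝓝[>] (0 : ℝ), l.1 ∈ Z.e.1 →
      Num99.NumL Z.J0 Z.e δ l ∧ Add46.LocAt Z.J0 Z.e δ l := fun l => by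
    by_cases hl : l.1 ∈ Z.e.1
    · obtain ⟨u, u0, hu⟩ := hN S _ _ _ _ _ Z.J0 Z.e l hS hJ hm hl (nl l)
      obtain ⟨v, v0, hv⟩ := Add46.loc L z.D.nrm (z.D.lnrm _) hJ hm ⟨hl, hS.lsp l l.2⟩ (piece hS l hl)
        (nl l).1 ⟨0, py l l.2⟩
      filter_upwards [Ioc_mem_nhdsGT u0, Ioc_mem_nhdsGT v0] with δ a b _ using ⟨hu δ a, hv δ b⟩
    · exact .of_forall fun _ k => (hl k).elim
  filter_upwards [eventually_all.2 k, Ioc_mem_nhdsGT p1, Ioc_mem_nhdsGT p2] with δ k a1 a2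
  refine (Lxv20.cut0 G lk).mono fun Adm c0 q y l ha hy hl => ⟨Lxv20.van G hl hσ lk hy, ?_⟩
  obtain ⟨nu, lc⟩ := k l hl
  obtain ⟨ea, k0, -⟩ := Lxv20.ea G hl hσ lk hy
  have g := dc δ a1.2 _ _ hσ q y l hy hl
  have hc : l.1 ∈ cylW Z.e := ⟨hl, hS.lsp l l.2⟩
  have br := hy.brk l hc
  rw [q0 (nl l).2] at br
  obtain ⟨x, e, F, ke, cs⟩ := core (y := Fk18.Z1.o0 y) hJ a1.1 hc (piece hS l hl) (nl l).1 (py l l.2)
    (sc_in H hS Z.i l) (Nck90.cat _ _) (fl δ a2.2 l l.2 hl) (Dw82.flc _ _) (Wl34.wlJ _ _)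
    (fun z z' e e' g g' ev => (lc.dif z z' (e'.trans e.symm) g g' ev).1)
    ⟨g.adm.ok, g.adm.conn, g.adm.sm, g.adm.pos, .inl rfl⟩ ⟨g.br, g.O, g.adm, g.bs, g.lim, g.int⟩
    ⟨ea.int, ea.le⟩ k0 (hy.crit l hc false) br
  refine ⟨x, e, _, _, F, ke, (lc.ex x F.go).1, (lc.ex x F.go).2, ?_⟩
  obtain ⟨n0, n1⟩ := nu x F.go
  have c1 := fun f => c0 _ hσ _ q y l ha hy hl f
  rcases cs with ⟨f, f'⟩ | ⟨ξ, ab, ⟨kz, -⟩ | kz⟩
  · obtain ⟨n1, n2⟩ := n0 f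
    have := fun k => c1 (f' k)
    dsimp only
    split_ifs with u
    · have : e ≠ 0 := fun k => this k u
      omega
    · omega
  · obtain ⟨n1, n2⟩ := (n1 ξ ab F.ea).1 kz
    dsimp only
    split_ifs <;> omega
  · obtain ⟨n1, n2⟩ := (n1 ξ ab F.ea).2 kz
    dsimp only
    split_ifs <;> omega

end Crest.Agent.X212.Lx51
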