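import Crest.Agent.X212.Nd18.Fca
import Crest.Agent.X212.Kof81.Prs
import Crest.Agent.X212.Kof81.Pon
import Crest.Agent.X212.Kof81.Klp
import Crest.Agent.X212.Kit16.Sta
import Crest.Agent.X212.Nd18.Fce
import Crest.Agent.X212.Kof81.Sbp
import Crest.Agent.X212.Lx51.Core
import Crest.Agent.X212.Klp2.Lx
import Crest.Agent.X212.Lx51.Main
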